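import Vale.Agent.Lib.P217.StabProof

/-!
# P217 (Q1): the ideals of the Lubin-Tate ring invariant under the Morava stabilizer group

For every prime `p` and every height `n ≥ 1`.
* There is a commutative formal group law `Γ` over `𝔽_p` with `[p]_Γ(X) = X^{p^n}`.
* For each such `Γ` there is a formal group law `F` over `E_0 = W(𝔽_{p^n})[[u_1, …, u_{n-1}]]`
  lifting `Γ`, in standard coordinates.
* For each such `F`: the pair `(E_0, F)` pro-represents deformations of `Γ` with a marking; the
  extended stabilizer group `G_n = Aut(Γ) ⋊ Gal(𝔽_{p^n}/𝔽_p)` acts on `E_0` by a group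
  homomorphism `ρ : G_n → Aut(E_0)`, where `ρ x` is the unique ring automorphism which changes the
  marking by `x`; the prime ideals of `E_0` stable under `G_n` are exactly `I_0, …, I_n`; and the
  radical ideals of `E_0` stable under `G_n` are exactly `I_0, …, I_n` and `E_0`.
-/

namespace Vale.Agent.Results.P217.ChaiAction

open Vale.Agent.P217.Stab

theorem result (p : ℕ) [Fact p.Prime] (n : ℕ) (hn : 1 ≤ n) :
    (∃ Γ : FormalGroup (ZMod p), Γ.IsComm ∧ mult Γ p = PowerSeries.X ^ (p ^ n)) ∧
    ∀ Γ : FormalGroup (ZMod p), Γ.IsComm → mult Γ p = PowerSeries.X ^ (p ^ n) →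
      (∃ F : FormalGroup (E0 p n), IsStandardLift p n Γ F) ∧
      ∀ F : FormalGroup (E0 p n), IsStandardLift p n Γ F →
        IsUniversal p n Γ F ∧
        ∃ ρ : StabAction p n Γ,
          IsMarkingAction F ρ ∧
          (∀ P : Ideal (E0 p n), (P.IsPrime ∧ IsStable ρ P) ↔ ∃ h ≤ n, P = I p n h) ∧
          (∀ J : Ideal (E0 p n), (J.IsRadical ∧ IsStable ρ J) ↔ J = ⊤ ∨ ∃ h ≤ n, J = I p n h) :=
  chai p n hn

end Vale.Agent.Results.P217.ChaiAction
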