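import Vale.Agent.Lib.P217.Final

/-!
# P217: the invariant prime and radical ideals of the Lubin-Tate ring (Q1)

For every prime `p` and every height `n ≥ 1`, the prime ideals of the Lubin-Tate ring
`W(𝔽_{p^n})[[u_1, …, u_{n-1}]]` which are invariant under the extended Morava stabilizer group
are exactly `I_0, …, I_n`, and the invariant radical ideals are exactly `I_0, …, I_n` and the
whole ring.
-/

namespace Vale.Agent.Results.P217.ChaiFull

open Vale.Agent.P217

theorem result (p : ℕ) [Fact p.Prime] (n : ℕ) (hn : n ≠ 0) (Γ : FormalGroup (ZMod p))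
    (hcomm : Γ.IsComm) (hΓ : mulSeries Γ p = PowerSeries.X ^ (p ^ n))
    (F : FormalGroup (LTRing p n))
    (hF : IsUniversalDeformation (Γ.map (algebraMap (ZMod p) (GaloisField p n)))
      (residueMap p n) F)
    (hc : HasStandardCoordinates p n F) :
    (∀ P : Ideal (LTRing p n),
      (P.IsPrime ∧ IsInvariant (Γ.map (algebraMap (ZMod p) (GaloisField p n)))
        (residueMap p n) F P) ↔ ∃ h ≤ n, P = heightIdeal p n h) ∧
    (∀ I : Ideal (LTRing p n),
      (I.IsRadical ∧ IsInvariant (Γ.map (algebraMap (ZMod p) (GaloisField p n)))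
        (residueMap p n) F I) ↔ I = ⊤ ∨ ∃ h ≤ n, I = heightIdeal p n h) :=
  ⟨fun P => final_prime hn Γ hΓ F hF hc P, fun I => final_radical hn Γ hΓ F hF hc I⟩

end Vale.Agent.Results.P217.ChaiFull
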