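import Vale.Agent.Lib.P217.Final
import Vale.Agent.Lib.P217.UnivEx
import Vale.Agent.Lib.P217.ActEx

/-!
# P217: the invariant prime and radical ideals of the Lubin-Tate ring (Q1), with existence

For every prime `p` and every height `n ≥ 1`.
* There is a commutative formal group law over `𝔽_p` with `[p](X) = X^{p^n}`.
* For each such formal group law `Γ` there is a universal deformation `F` of its base change to
  `𝔽_{p^n}` over the Lubin-Tate ring `W(𝔽_{p^n})[[u_1, …, u_{n-1}]]`, in standard coordinates.
* For each such `F`, the extended stabilizer group acts: every element acts by a unique ring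
  automorphism of the Lubin-Tate ring.
* The invariant prime ideals are exactly `I_0, …, I_n`; the invariant radical ideals are exactly
  `I_0, …, I_n` and the whole ring.
-/

namespace Vale.Agent.Results.P217.ChaiUncond

open Vale.Agent.P217

theorem result (p : ℕ) [Fact p.Prime] (n : ℕ) (hn : n ≠ 0) :
    (∃ Γ : FormalGroup (ZMod p), Γ.IsComm ∧ mulSeries Γ p = PowerSeries.X ^ (p ^ n)) ∧
    ∀ Γ : FormalGroup (ZMod p), Γ.IsComm → mulSeries Γ p = PowerSeries.X ^ (p ^ n) →
      (∃ F : FormalGroup (LTRing p n),
        IsUniversalDeformation (Γ.map (algebraMap (ZMod p) (GaloisField p n)))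
          (residueMap p n) F ∧ HasStandardCoordinates p n F) ∧
      ∀ F : FormalGroup (LTRing p n),
        IsUniversalDeformation (Γ.map (algebraMap (ZMod p) (GaloisField p n)))
          (residueMap p n) F → HasStandardCoordinates p n F →
        (∀ (σ : GaloisField p n ≃+* GaloisField p n) (g : PowerSeries (GaloisField p n)),
          IsHom ((Γ.map (algebraMap (ZMod p) (GaloisField p n))).map
              (σ : GaloisField p n →+* GaloisField p n))
            (Γ.map (algebraMap (ZMod p) (GaloisField p n))) g →
          IsUnit (PowerSeries.coeff 1 g) →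
          ∃! φ : LTRing p n ≃+* LTRing p n,
            ActsBy (Γ.map (algebraMap (ZMod p) (GaloisField p n))) (residueMap p n) F g σ φ) ∧
        (∀ P : Ideal (LTRing p n),
          (P.IsPrime ∧ IsInvariant (Γ.map (algebraMap (ZMod p) (GaloisField p n)))
            (residueMap p n) F P) ↔ ∃ h ≤ n, P = heightIdeal p n h) ∧
        (∀ I : Ideal (LTRing p n),
          (I.IsRadical ∧ IsInvariant (Γ.map (algebraMap (ZMod p) (GaloisField p n)))
            (residueMap p n) F I) ↔ I = ⊤ ∨ ∃ h ≤ n, I = heightIdeal p n h) := by
  refine ⟨⟨honda (ZMod p) p n (Nat.pos_of_ne_zero hn), inferInstance,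
    mulSeries_honda (ZMod p) p n (Nat.pos_of_ne_zero hn)⟩, ?_⟩
  intro Γ hcomm hΓ
  refine ⟨exists_universal p n hn Γ hΓ, ?_⟩
  intro F hF hc
  exact ⟨fun σ g hg hg1 => existsUnique_actsBy (residueMap_surjective p n) hF σ g hg hg1,
    fun P => final_prime hn Γ hΓ F hF hc P, fun I => final_radical hn Γ hΓ F hF hc I⟩

end Vale.Agent.Results.P217.ChaiUncond
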