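import Vale.Agent.Lib.P217.ChaiP2

/-!
# P217: the invariant prime ideals of the Lubin-Tate ring containing `p`

For every prime `p` and every height `n ≥ 1`: a prime ideal of the Lubin-Tate ring
`W(𝔽_{p^n})[[u_1, …, u_{n-1}]]` which contains `p` and is invariant under the extended Morava
stabilizer group is one of `(p, u_1, …, u_{h-1})`, `1 ≤ h ≤ n`.
-/

namespace Vale.Agent.Results.P217.PrimesAboveP

open Vale.Agent.P217

theorem result (p : ℕ) [Fact p.Prime] (n : ℕ) (hn : n ≠ 0) (Γ : FormalGroup (ZMod p))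
    (hcomm : Γ.IsComm) (hΓ : mulSeries Γ p = PowerSeries.X ^ (p ^ n))
    (F : FormalGroup (LTRing p n))
    (hF : IsUniversalDeformation (Γ.map (algebraMap (ZMod p) (GaloisField p n)))
      (residueMap p n) F)
    (hc : HasStandardCoordinates p n F) (P : Ideal (LTRing p n)) (hP : P.IsPrime)
    (hinv : IsInvariant (Γ.map (algebraMap (ZMod p) (GaloisField p n))) (residueMap p n) F P)
    (hp : (p : LTRing p n) ∈ P) :
    ∃ h : ℕ, 1 ≤ h ∧ h ≤ n ∧ P = heightIdeal p n h :=
  exists_height_of_p_mem hn Γ hΓ F hF hc P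
    (weaklyInvariant_of_isInvariant Γ F P hinv) hp

end Vale.Agent.Results.P217.PrimesAboveP
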